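import Vale.Agent.P335W16.Main

open MeasureTheory Vale.Agent.P335 Vale.Agent.P335W

open Classical in
/-- The Kannan-Tetali-Vempala conjecture for the switch chain as a random process. -/
theorem Vale.Agent.Results.P335.ARandomSwitches.result :
    (∀ (n : ℕ) (S : Four n), Nat.card (Pair S) = 6) ∧
    (∀ (n : ℕ) (d : Fin n → ℕ) (G : SimpleGraph (Fin n)) (c : ℕ → Choice n) (t : ℕ),
      HasDegrees d G → HasDegrees d (walk G c t)) ∧
    (∀ n : ℕ, 4 ≤ n → ∃ (Ω : Type) (_ : MeasurableSpace Ω) (P : Measure Ω)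
      (c : ℕ → Ω → Choice n), IsChoices P c) ∧
    (∀ n : ℕ, 4 ≤ n → ∀ (d : Fin n → ℕ) (Ω : Type) [MeasurableSpace Ω] (P : Measure Ω)
      (c : ℕ → Ω → Choice n), IsChoices P c → ∀ (G : Realization d) (t : ℕ) (H : Realization d),
        MeasurableSet (At c G t H) ∧ P.real (At c G t H) = (switchChain d ^ t) G H) ∧
    ∃ p : Polynomial ℝ, ∀ n : ℕ, 4 ≤ n → ∀ d : Fin n → ℕ, Graphical d →
      ∀ (Ω : Type) [MeasurableSpace Ω] (P : Measure Ω) (c : ℕ → Ω → Choice n), IsChoices P c →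
        ∃ t : ℕ, IsLeast {s | Mixed d P c s} t ∧ (t : ℝ) ≤ p.eval (n : ℝ) ∧ t ≤ n ^ 6 := by
  refine ⟨fun n S => Nat.card_eq_fintype_card.trans (card_pair S),
    fun _ _ _ c t h => walk_deg h c t, fun _ hn => exists_choices hn,
    fun _ hn _ _ _ _ _ h G t H => ⟨h.measAt G t H, h.law hn G t H⟩,
    Polynomial.X ^ 6, fun n hn d hd Ω _ P c h => ?_⟩
  obtain ⟨t, h1, h2⟩ := main n hn d hd Ω P c h
  refine ⟨t, h1, ?_, h2⟩
  rw [Polynomial.eval_pow, Polynomial.eval_X]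
  exact_mod_cast h2
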